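import Vale.Agent.P139.A0.Osc
import Vale.Agent.P139.A0.Hat
import Vale.Agent.P139.A0.Eig
import Vale.Agent.P139.A0.GpD
import Vale.Agent.P139.A0.Disc2

/-! P139 part A0 (interface): facts on the algebra `AA`, see PROOF.md. The theorems are in P139/A0/*.lean. -/
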