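import Vale.Agent.P139.B.Main

/-! P139 part B (interface): existence of profiles, see PROOF.md. -/

noncomputable section

open MeasureTheory Filter Topology Set Complex
open scoped ComplexConjugate ContDiff

namespace Vale.Agent.P139

theorem prof_main : ∃ C : ℝ, 0 < C ∧ ∀ ε : ℝ, 0 < ε →
    ∃ (m : ℕ) (Q : Prof m) (X0 : ℝ), Q.Good X0 ε C := b_main

end Vale.Agent.P139
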