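import Vale.Agent.P139.D.Main

/-! P139 part D (interface): rigorous numerics for the limit problem, see PROOF.md. -/

noncomputable section

open MeasureTheory Filter Topology Set Complex
open scoped ComplexConjugate ContDiff

namespace Vale.Agent.P139

theorem det_main : ∃ δ c : ℝ, 0 < δ ∧ δ ≤ 1 / 8 ∧ 0 < c ∧ ∀ X β, InBox X β → ∀ (l : ℕ) (lam : ℂ),
    0 ≤ lam.re → ((∀ z, Sym l z → δ ≤ ‖lam - z‖) → Det X β ((l + 5) / 2) lam ≠ 0) ∧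
      ∀ z, Sym l z → ‖lam - z‖ ≤ δ → Det X β ((l + 5) / 2) z = 0 →
        c * ‖lam - z‖ ≤ ‖Det X β ((l + 5) / 2) lam‖ :=
  ⟨1 / 64, 1 / 2 ^ 60, by norm_num, by norm_num, by norm_num, fun _ _ h l _ h0 =>
    ⟨D.away h l h0, fun _ hz hn e => D.sym_main hz h h0 hn e⟩⟩

theorem mis_main : ∃ (u v : ℂ) (c : ℝ), 0 < c ∧ (u * conj v).im ≠ 0 ∧
    (∀ β ∈ Icc βlo βhi, (u * Mis Xlo β).re ≤ -c ∧ c ≤ (u * Mis Xhi β).re) ∧
    ∀ X ∈ Icc Xlo Xhi, (v * Mis X βlo).re ≤ -c ∧ c ≤ (v * Mis X βhi).re := D.mis_all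

end Vale.Agent.P139
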