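import Vale.Agent.P139.C.Main

/-! P139 part C (interface): radial mode stability, see PROOF.md. -/

noncomputable section

open MeasureTheory Filter Topology Set Complex
open scoped ComplexConjugate ContDiff

namespace Vale.Agent.P139

theorem rms_main (C : ℝ) (hC : 0 < C) : ∃ ε0 : ℝ, 0 < ε0 ∧
    ∀ (m : ℕ) (Q : Prof m) (X0 : ℝ), Q.Good X0 ε0 C → Q.RMS := c_main C hC

end Vale.Agent.P139
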